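import Vale.Agent.P002B14.Defs2
import Vale.Agent.P002Z.Surf

/-!
# Analytic subsets are thin (helper14)
-/

set_option autoImplicit false
set_option linter.all false

namespace Vale.Agent.P002B14

open Set Filter Topology Metric Vale.Agent.P002Z

variable {V : Type} [NormedAddCommGroup V] [NormedSpace ℂ V]

theorem ball_conn {g : V → ℂ} {c : V} {r : ℝ} (hg : AnalyticOnNhd ℂ g (ball c r)) {a b : V}
    (ha : a ∈ ball c r) (hb : b ∈ ball c r) (ga : g a ≠ 0) (gb : g b ≠ 0) :
    JoinedIn (ball c r \ {z | g z = 0}) a b := by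
  rcases eq_or_ne a b with rfl | hab
  · exact JoinedIn.refl ⟨ha, ga⟩
  let L : ℂ →ᵃ[ℂ] V := AffineMap.lineMap a b
  have hL : Continuous L := AffineMap.lineMap_continuous
  have l0 : L 0 = a := AffineMap.lineMap_apply_zero a b
  have l1 : L 1 = b := AffineMap.lineMap_apply_one a b
  have hLa : ∀ t, AnalyticAt ℂ L t := fun t => by
    have : (L : ℂ → V) = fun t => t • (b - a) + a := funext fun t => AffineMap.lineMap_apply_module' a b t
    rw [this]
    exact (analyticAt_id.smul analyticAt_const).add analyticAt_const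
  have cv : ∀ S : Set V, Convex ℝ S → Convex ℝ (L ⁻¹' S) := fun S hS s hs t ht p q hp hq e => by
    have h := hS hs ht hp hq e
    have e' : (p : ℂ) + q = 1 := by exact_mod_cast e
    rw [mem_preimage]
    convert h using 1
    simp only [L, AffineMap.lineMap_apply_module', ← Complex.coe_smul, smul_eq_mul]
    rw [eq_sub_of_add_eq' e']
    module
  obtain ⟨ρ, h1, h2⟩ := exists_between (max_lt (mem_ball.1 ha) (mem_ball.1 hb))
  have ha' : a ∈ ball c ρ := (le_max_left _ _).trans_lt h1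
  have hb' : b ∈ ball c ρ := (le_max_right _ _).trans_lt h1
  have hK : IsCompact (L ⁻¹' closedBall c ρ) := by
    refine Metric.isCompact_of_isClosed_isBounded (isClosed_closedBall.preimage hL)
      (isBounded_iff_forall_norm_le.2 ⟨2 * ρ / ‖b - a‖, fun t ht => ?_⟩)
    rw [le_div_iff₀ (norm_pos_iff.2 (sub_ne_zero.2 hab.symm)), ← norm_smul]
    have h3 : dist (L t) a = ‖t • (b - a)‖ := by
      rw [dist_eq_norm, AffineMap.lineMap_apply_module', add_sub_cancel_right]
    have h4 := dist_triangle_right (L t) a c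
    have h5 : dist (L t) c ≤ ρ := ht
    have h6 : dist a c < ρ := ha'
    linarith
  have hgL : AnalyticOnNhd ℂ (g ∘ L) (L ⁻¹' closedBall c ρ) := fun t ht =>
    (hg _ (closedBall_subset_ball h2 ht)).comp (hLa t)
  have hfin : ((L ⁻¹' closedBall c ρ) \ {t | (g ∘ L) t ≠ 0}).Finite := by
    rcases hgL.eqOn_zero_or_eventually_ne_zero_of_preconnected
      (cv _ (convex_closedBall c ρ)).isPreconnected with h | h
    · exact absurd (l0 ▸ h (x := 0) (by rw [mem_preimage, l0]; exact ball_subset_closedBall ha')) ga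
    · exact hK.finite_sdiff_of_mem_codiscreteWithin h
  let Ω : TopologicalSpace.Opens ℂ := ⟨L ⁻¹' ball c ρ, isOpen_ball.preimage hL⟩
  have m0 : (0 : ℂ) ∈ Ω := by change L 0 ∈ ball c ρ; rwa [l0]
  have m1 : (1 : ℂ) ∈ Ω := by change L 1 ∈ ball c ρ; rwa [l1]
  have : ConnectedSpace Ω := isConnected_iff_connectedSpace.1
    ((cv _ (convex_ball c ρ)).isConnected ⟨0, m0⟩)
  have h3 := (isPathConnected_compl_finite (M := Ω) (hfin.preimage
    Subtype.val_injective.injOn)).joinedIn ⟨0, m0⟩ (fun h => h.2 (l0 ▸ ga : g (L 0) ≠ 0))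
    ⟨1, m1⟩ fun h => h.2 (l1 ▸ gb : g (L 1) ≠ 0)
  have h4 := h3.map (f := fun t : Ω => L t) (hL.comp continuous_subtype_val)
  simp only [l0, l1] at h4
  refine h4.mono ?_
  rintro _ ⟨t, ht, rfl⟩
  exact ⟨ball_subset_ball h2.le t.2, fun h => ht ⟨ball_subset_closedBall t.2, fun h' => h' h⟩⟩

theorem thin_an {T : Type} [TopologicalSpace T] [ChartedSpace V T] [CompleteSpace V]
    {E E' : Set T} (hE : IsClosed E) (hE' : IsClosed E')
    (h : ∀ x ∉ E, ∃ g : V → ℂ, AnalyticAt ℂ g (chartAt V x x) ∧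
      ¬g =ᶠ[𝓝 (chartAt V x x)] 0 ∧ ∀ᶠ y in 𝓝 x, y ∈ E' → g (chartAt V x y) = 0) :
    Thin E E' := by
  intro x hx O hO
  letI : NormedSpace ℝ V := NormedSpace.complexToReal
  obtain ⟨g, h1, h2, h3⟩ := h x hx
  set e := chartAt V x
  have hb : x ∈ e.source := mem_chart_source V x
  have h4 : e.target ∩ e.symm ⁻¹' ((O \ E) ∩ {y | y ∈ E' → g (e y) = 0}) ∩
      {z | AnalyticAt ℂ g z} ∈ 𝓝 (e x) :=
    inter_mem (inter_mem (e.open_target.mem_nhds (e.map_source hb))
      (e.continuousAt_symm (e.map_source hb) (by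
        rw [e.left_inv hb]
        exact inter_mem (inter_mem hO (hE.isOpen_compl.mem_nhds hx)) h3)))
      h1.eventually_analyticAt
  obtain ⟨r, hr, h5⟩ := Metric.mem_nhds_iff.1 h4
  have h6 : ball (e x) r ⊆ e.symm.source := fun z hz => (h5 hz).1.1
  have hg : AnalyticOnNhd ℂ g (ball (e x) r) := fun z hz => (h5 hz).2
  have hc : ContinuousOn e.symm (ball (e x) r) := e.symm.continuousOn.mono h6
  have hd : ball (e x) r ⊆ closure (ball (e x) r \ {z | g z = 0}) := fun z hz => by
    by_contra hn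
    refine h2 (eventually_of_mem (ball_mem_nhds _ hr) (hg.eqOn_zero_of_preconnected_of_eventuallyEq_zero
      (convex_ball _ _).isPreconnected hz ?_))
    filter_upwards [isClosed_closure.isOpen_compl.mem_nhds hn, isOpen_ball.mem_nhds hz] with w h7 h8
    by_contra h9
    exact h7 (subset_closure ⟨h8, h9⟩)
  obtain ⟨a, ha⟩ := closure_nonempty_iff.1 ⟨_, hd (mem_ball_self hr)⟩
  have h7 : IsPathConnected (ball (e x) r \ {z | g z = 0}) :=
    ⟨a, ha, fun b hb => ball_conn hg ha.1 hb.1 ha.2 hb.2⟩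
  have h8 : IsPathConnected (ball (e x) r ∩ e.symm ⁻¹' E'ᶜ) :=
    (hc.isOpen_inter_preimage isOpen_ball hE'.isOpen_compl).isConnected_iff_isPathConnected.1
      (h7.isConnected.subset_closure (fun z hz => ⟨hz.1, fun h9 => hz.2 (by
        have := (h5 hz.1).1.2.2 h9
        rwa [e.right_inv (h6 hz.1)] at this)⟩) fun z hz => hd hz.1)
  refine ⟨e.symm '' ball (e x) r, ?_, e.symm.isOpen_image_of_subset_source isOpen_ball h6,
    ⟨e x, mem_ball_self hr, e.left_inv hb⟩, ?_, ?_⟩
  · rintro _ ⟨z, hz, rfl⟩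
    exact (h5 hz).1.2.1
  · have := (convex_ball (e x) r).contractibleSpace ⟨_, mem_ball_self hr⟩
    have := (e.symm.homeomorphOfImageSubsetSource h6 rfl).symm.contractibleSpace
    exact SimplyConnectedSpace.ofContractible _
  · rw [sdiff_eq, ← image_inter_preimage]
    exact h8.image' (hc.mono inter_subset_left)

end Vale.Agent.P002B14
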