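import Vale.Agent.P002Z.PF
import Mathlib.Tactic.Group

/-!
# The fundamental group of a locally trivial bundle (helper14)
-/

set_option autoImplicit false
set_option linter.all false

namespace Vale.Agent.P002B14

open Set Filter Topology Bundle Vale.Agent.P002Z

/-- every point has small open simply connected neighbourhoods -/
def LSC (B : Type) [TopologicalSpace B] : Prop :=
  ∀ b : B, ∀ O ∈ 𝓝 b, ∃ U, IsOpen U ∧ b ∈ U ∧ U ⊆ O ∧ IsSimplyConnected U

variable {X B F : Type} [TopologicalSpace X] [TopologicalSpace B] [TopologicalSpace F]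
  {p : C(X, B)}

theorem symm_cont (e : Trivialization F p) {A : Type} [TopologicalSpace A] {α : A → B} {β : A → F}
    (hα : Continuous α) (hβ : Continuous β) (h : ∀ t, α t ∈ e.baseSet) :
    Continuous fun t => e.toOpenPartialHomeomorph.symm (α t, β t) :=
  e.toOpenPartialHomeomorph.continuousOn_symm.comp_continuous (hα.prodMk hβ)
    fun t => e.mem_target.2 (h t)

theorem snd_cont (e : Trivialization F p) {A : Type} [TopologicalSpace A] {c : A → X}
    (hc : Continuous c) (h : ∀ t, p (c t) ∈ e.baseSet) : Continuous fun t => (e (c t)).2 :=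
  (e.toOpenPartialHomeomorph.continuousOn.comp_continuous hc fun t => e.mem_source.2 (h t)).snd

theorem lift [PathConnectedSpace F] (e : Trivialization F p) {b b' : B} (α : Path b b')
    (h : ∀ t, α t ∈ e.baseSet) {x y : X} (hx : p x = b) (hy : p y = b') :
    ∃ q : Path x y, ∀ t, p (q t) = α t := by
  subst hx hy
  let β := PathConnectedSpace.somePath (e x).2 (e y).2
  refine ⟨⟨⟨fun t => e.toOpenPartialHomeomorph.symm (α t, β t),
    symm_cont e α.continuous β.continuous h⟩, ?_, ?_⟩, fun t => e.proj_symm_apply' (h t)⟩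
  · simp only [Path.source]
    exact e.symm_apply_mk_proj (e.mem_source.2 (by simpa using h 0))
  · simp only [Path.target]
    exact e.symm_apply_mk_proj (e.mem_source.2 (by simpa using h 1))

theorem to_fibre (e : Trivialization F p) {U : Set B} (hU : IsSimplyConnected U)
    (hUe : U ⊆ e.baseSet) {a : X} (c : Path a a) (hc : ∀ t, p (c t) ∈ U) :
    ∃ c' : Path a a, (∀ t, p (c' t) = p a) ∧ c.Homotopic c' := by
  obtain ⟨K, hK⟩ := (isSimplyConnected_iff_exists_homotopy_refl_forall_mem.1 hU).2 (p a)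
    (c.map p.continuous) hc
  have ha : p a ∈ e.baseSet := hUe (by simpa using hc 0)
  have h2 := snd_cont e c.continuous fun t => hUe (hc t)
  have h0 : e.toOpenPartialHomeomorph.symm (p a, (e a).2) = a :=
    e.symm_apply_mk_proj (e.mem_source.2 ha)
  refine ⟨⟨⟨fun t => e.toOpenPartialHomeomorph.symm (p a, (e (c t)).2),
    symm_cont e continuous_const h2 fun _ => ha⟩, by simpa using h0, by simpa using h0⟩,
    fun t => e.proj_symm_apply' ha, ⟨⟨⟨⟨fun z => e.toOpenPartialHomeomorph.symm
      (K z, (e (c z.2)).2), symm_cont e K.continuous (h2.comp continuous_snd)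
        fun z => hUe (hK z)⟩, fun t => ?_, fun t => ?_⟩, fun s t ht => ?_⟩⟩⟩
  · have : K (0, t) = p (c t) := K.apply_zero t
    simp only [this]
    exact e.symm_apply_mk_proj (e.mem_source.2 (hUe (hc t)))
  · have : K (1, t) = p a := K.apply_one t
    simp only [this]
    rfl
  · have : K (s, t) = p (c t) := K.eq_fst s ht
    change e.toOpenPartialHomeomorph.symm (K (s, t), (e (c t)).2) = c t
    rw [this]
    exact e.symm_apply_mk_proj (e.mem_source.2 (hUe (hc t)))

theorem bundle (p : C(X, B)) [PathConnectedSpace X] [PathConnectedSpace F] (hB : LSC B)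
    (h : ∀ b, ∃ e : Trivialization F p, b ∈ e.baseSet) (x₀ : X) (f₀ : F) :
    Function.Surjective (FundamentalGroup.map p x₀) ∧
      ∃ j : FundamentalGroup F f₀ →* FundamentalGroup X x₀,
        (FundamentalGroup.map p x₀).ker ≤ j.range := by
  choose e he using h
  choose U hUo hUb hUe hU using fun b => hB b _ ((e b).open_baseSet.mem_nhds (he b))
  have hs : Function.Surjective p := fun b =>
    ⟨(e b).toOpenPartialHomeomorph.symm (b, f₀), (e b).proj_symm_apply' (he b)⟩
  have hm : ∀ q : Path x₀ x₀, FundamentalGroup.map p x₀ (Path.Homotopic.Quotient.mk q) =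
      Path.Homotopic.Quotient.mk (q.map p.continuous) := fun q => rfl
  have hcov : (univ : Set X) ⊆ ⋃ b, p ⁻¹' U b := fun x _ => mem_iUnion.2 ⟨p x, hUb _⟩
  have hop : ∀ b, IsOpen (p ⁻¹' U b) := fun b => (hUo b).preimage p.continuous
  refine ⟨fun a => ?_, ?_⟩
  · have : PathConnectedSpace B := hs.pathConnectedSpace p.continuous
    obtain ⟨l, hl, -⟩ := exists_univ (p x₀)
    obtain ⟨α, rfl⟩ := Path.Homotopic.Quotient.mk_surjective a
    obtain ⟨q, hq⟩ := path_induction U hUo univ (fun b _ => mem_iUnion.2 ⟨b, hUb b⟩)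
      (fun b b' α => ∀ x y, p x = b → p y = b' →
        ∃ q : Path x y, l.v (q.map p.continuous) = l.v α)
      (fun b b' α β H hα x y hx hy => by rw [← l.hom H]; exact hα x y hx hy)
      (fun b b' b'' α β hα hβ x z hx hz => by
        obtain ⟨y, hy⟩ := hs b'
        obtain ⟨q, hq⟩ := hα x y hx hy
        obtain ⟨r, hr⟩ := hβ y z hy hz
        exact ⟨q.trans r, by rw [Path.map_trans, l.trans, l.trans, hq, hr]⟩)
      (fun i b b' α hα x y hx hy => by
        obtain ⟨q, hq⟩ := lift (e i) α (fun t => hUe i (hα t).2) hx hy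
        exact ⟨q, l.congr hq⟩) α (fun _ => mem_univ _) x₀ x₀ rfl rfl
    refine ⟨Path.Homotopic.Quotient.mk q, ?_⟩
    rw [hm, ← hl (Path.Homotopic.Quotient.mk (q.map _)), l.toHom_mk, hq, ← l.toHom_mk, hl]
  obtain ⟨κ, hκ, -⟩ := exists_univ x₀
  let N : X → Set (FundamentalGroup X x₀) := fun a =>
    {g | ∃ c : Path a a, (∀ t, p (c t) = p a) ∧ κ.v c = g}
  have c0 : ∀ b a (c : Path a a), (∀ t, p (c t) ∈ U b) → κ.v c ∈ N a := fun b a c hc => by
    obtain ⟨c', h1, h2⟩ := to_fibre (e b) (hU b) (hUe b) c hc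
    exact ⟨c', h1, (κ.hom h2).symm⟩
  have c1 : ∀ x y (q : Path x y), ∀ g ∈ N x, κ.v q * g * (κ.v q)⁻¹ ∈ N y := fun x y q =>
    path_induction _ hop univ hcov
      (fun x y q => ∀ g ∈ N x, κ.v q * g * (κ.v q)⁻¹ ∈ N y)
      (fun x y q r H hq => by rw [← κ.hom H]; exact hq)
      (fun x y z q r hq hr g hg => by
        have := hr _ (hq g hg)
        rw [κ.trans]
        convert this using 1
        group)
      (fun i x y q hq => by
        rintro g ⟨c, hc, rfl⟩
        have hx : p x ∈ U i := by simpa using (hq 0).2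
        have := c0 i y (q.symm.trans (c.trans q)) fun t => by
          have : (q.symm.trans (c.trans q)) t ∈ range (q.symm.trans (c.trans q)) := ⟨t, rfl⟩
          rw [Path.trans_range, Path.trans_range, Path.symm_range] at this
          rcases this with ⟨u, hu⟩ | ⟨u, hu⟩ | ⟨u, hu⟩
          · exact hu ▸ (hq u).2
          · rw [← hu, hc]; exact hx
          · exact hu ▸ (hq u).2
        rwa [κ.trans, κ.trans, κ.symm] at this) q fun _ => mem_univ _
  let ι : C(F, X) := ⟨fun f => (e (p x₀)).toOpenPartialHomeomorph.symm (p x₀, f),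
    symm_cont _ continuous_const continuous_id fun _ => he _⟩
  have hι : ∀ f, p (ι f) = p x₀ := fun f => (e _).proj_symm_apply' (he _)
  let j := (κ.comap ι).toHom f₀
  have hj : ∀ g, g ∈ j.range ↔ g ∈ N (ι f₀) := fun g => by
    constructor
    · rintro ⟨a, rfl⟩
      obtain ⟨c, rfl⟩ := Path.Homotopic.Quotient.mk_surjective a
      exact ⟨c.map ι.continuous, fun t => (hι _).trans (hι _).symm, rfl⟩
    · rintro ⟨c, hc, rfl⟩
      have h1 : ∀ t, p (c t) ∈ (e (p x₀)).baseSet := fun t => by rw [hc, hι]; exact he _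
      have h2 : ((e (p x₀)) (ι f₀)).2 = f₀ := congrArg Prod.snd ((e _).apply_symm_apply' (he _))
      refine ⟨Path.Homotopic.Quotient.mk ⟨⟨fun t => (e (p x₀) (c t)).2,
        snd_cont _ c.continuous h1⟩, by simpa using h2, by simpa using h2⟩, κ.congr fun t => ?_⟩
      change (e (p x₀)).toOpenPartialHomeomorph.symm (p x₀, (e (p x₀) (c t)).2) = c t
      have h3 := (e (p x₀)).symm_apply_mk_proj ((e _).mem_source.2 (h1 t))
      rwa [hc, hι] at h3
  have hn : j.range.Normal := ⟨fun n hn g => by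
    let σ := PathConnectedSpace.somePath x₀ (ι f₀)
    obtain ⟨q, hq⟩ := Path.Homotopic.Quotient.mk_surjective
      ((κ.v σ)⁻¹ * g * κ.v σ : FundamentalGroup X x₀)
    have h1 : κ.v q = (κ.v σ)⁻¹ * g * κ.v σ := by rw [← κ.toHom_mk, hκ, hq]
    have h2 : κ.v (σ.symm.trans (q.trans σ)) = g := by
      rw [κ.trans, κ.trans, κ.symm, h1]; group
    rw [hj] at hn ⊢
    exact h2 ▸ c1 _ _ _ n hn⟩
  have hN : ∀ a, ∀ g ∈ N a, g ∈ j.range := fun a g hg => by
    have := hn.conj_mem _ ((hj _).2 (c1 a _ (PathConnectedSpace.somePath _ _) g hg))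
      (κ.v (PathConnectedSpace.somePath a (ι f₀)))⁻¹
    convert this using 1
    group
  let κ' := κ.post (QuotientGroup.mk' j.range)
  choose τ hτ using fun b => κ'.exists_pot (V := p ⁻¹' U b) fun x c hc =>
    (QuotientGroup.eq_one_iff _).2 (hN x _ (c0 b x c hc))
  have cst : ∀ i k {b b'} (α : Path b b'), (∀ t, α t ∈ U i ∩ U k) → ∀ x y, p x = b → p y = b' →
      τ k y * (τ i y)⁻¹ = τ k x * (τ i x)⁻¹ := fun i k b b' α hα x y hx hy => by
    obtain ⟨q, hq⟩ := lift (e i) α (fun t => hUe i (hα t).1) hx hy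
    have h1 := hτ i x y q fun t => by change p (q t) ∈ U i; rw [hq]; exact (hα t).1
    have h2 := hτ k x y q fun t => by change p (q t) ∈ U k; rw [hq]; exact (hα t).2
    have h3 : τ k x = τ k y * ((τ i y)⁻¹ * τ i x) := by rw [← h1, h2]; group
    rw [h3]; group
  choose s hs using hs
  obtain ⟨φ, t, hφ, ht⟩ := exists_holonomy U hUo (fun b => ⟨b, hUb b⟩)
    (fun i k b => τ k (s b) * (τ i (s b))⁻¹) (fun i k b hb => by
      obtain ⟨V, hV, hbV, hVU, hVs⟩ := hB b _ (((hUo i).inter (hUo k)).mem_nhds hb)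
      filter_upwards [hV.mem_nhds hbV] with y hy
      obtain ⟨α, hα⟩ := hVs.isPathConnected.joinedIn b hbV y hy
      exact cst i k α (fun t => hVU (hα t)) _ _ (hs b) (hs y)) fun i k l b _ => by group
  let c : X → _ := fun x => (t (p x) (p x))⁻¹ * τ (p x) x
  have hc : ∀ i x, p x ∈ U i → c x = (t i (p x))⁻¹ * τ i x := fun i x hx => by
    have h1 := ht i (p x) (p x) ⟨hx, hUb _⟩
    rw [cst i (p x) (Path.refl (p x)) (fun _ => ⟨hx, hUb _⟩) x _ rfl (hs _)] at h1
    simp only [c]
    rw [h1]; group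
  refine ⟨j, fun a ha => ?_⟩
  obtain ⟨q, rfl⟩ := Path.Homotopic.Quotient.mk_surjective a
  have h1 := path_induction _ hop univ hcov
    (fun x y q => κ'.v q = (c y)⁻¹ * (φ.comap p).v q * c x)
    (fun x y q r H hq => by rw [← κ'.hom H, ← (φ.comap p).hom H]; exact hq)
    (fun x y z q r hq hr => by rw [κ'.trans, (φ.comap p).trans, hq, hr]; group)
    (fun i x y q hq => by
      have h2 : (φ.comap p).v q = _ := hφ i _ _ (q.map p.continuous) fun t => (hq t).2
      rw [h2, hτ i x y q fun t => (hq t).2, hc i x (by simpa using (hq 0).2),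
        hc i y (by simpa using (hq 1).2)]
      group) q fun _ => mem_univ _
  have h2 : (φ.comap p).v q = 1 := by
    change φ.toHom _ (FundamentalGroup.map p x₀ (Path.Homotopic.Quotient.mk q)) = 1
    rw [MonoidHom.mem_ker.1 ha, map_one]
  rw [h2, mul_one, inv_mul_cancel] at h1
  rw [← hκ (Path.Homotopic.Quotient.mk q), κ.toHom_mk]
  exact (QuotientGroup.eq_one_iff _).1 h1

end Vale.Agent.P002B14
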