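import Vale.Agent.P002A30.Defs

/-!
# P002: locally trivial families over products of curves
-/

open Vale.Agent.P299G40 (PN IsSmoothVariety)

namespace Vale.Agent.P002B14

open Vale.Agent.P002A

/-- There are continuous maps `f i` from `W` to smooth projective curves `Z i` which restrict to
maps `g i` from `X = W ∖ E` to `Z i ∖ D i`, `D i` finite, such that `X → ∏ (Z i ∖ D i)` is a
locally trivial fibre bundle whose fibre `F` is path connected with finitely generated, virtually
solvable fundamental group. -/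
def IsFamily {W : Type} [TopologicalSpace W] (E : Set W) : Prop :=
  ∃ (k : ℕ) (N : Fin k → ℕ) (Z : ∀ i, Set (PN (N i))) (D : ∀ i, Set (An (Z i)))
    (f : ∀ i, C(W, An (Z i))) (g : ∀ i, C(↥Eᶜ, ↥(D i)ᶜ)) (F : Type) (_ : TopologicalSpace F)
    (y : F), (∀ i, IsSmoothVariety 1 (Z i) ∧ (D i).Finite ∧ ∀ x, (g i x).1 = f i x.1) ∧
    (∀ b, ∃ e : Bundle.Trivialization F (ContinuousMap.pi g), b ∈ e.baseSet) ∧
    PathConnectedSpace F ∧ Group.FG (FundamentalGroup F y) ∧
    ∃ H : Subgroup (FundamentalGroup F y), Group.IsSolvable H ∧ H.FiniteIndex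

end Vale.Agent.P002B14
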