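import Mathlib.AlgebraicTopology.FundamentalGroupoid.SimplyConnected

/-!
# P002: thin subsets
-/

open Topology

namespace Vale.Agent.P002B14

/-- Every point of `X = W ∖ E` has arbitrarily small open simply connected neighbourhoods `U ⊆ X`
such that `U ∖ E'` is nonempty and path connected. -/
def Thin {W : Type} [TopologicalSpace W] (E E' : Set W) : Prop :=
  ∀ x ∉ E, ∀ O ∈ 𝓝 x, ∃ U ⊆ O \ E,
    IsOpen U ∧ x ∈ U ∧ IsSimplyConnected U ∧ IsPathConnected (U \ E')

end Vale.Agent.P002B14
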