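import Vale.Agent.P002B14.Bun
import Mathlib.Topology.Homotopy.Product
import Mathlib.Geometry.Manifold.ChartedSpace
import Mathlib.Analysis.Convex.Contractible
import Mathlib.Analysis.Normed.Module.Convex
import Mathlib.GroupTheory.Solvable
import Mathlib.GroupTheory.Index
import Mathlib.GroupTheory.Finiteness
import Mathlib.Topology.Sets.Opens
import Mathlib.Geometry.Manifold.HasGroupoid

/-!
# Bundles over products (helper14)
-/

set_option autoImplicit false
set_option linter.all false

namespace Vale.Agent.P002B14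

open Set Filter Topology Bundle Vale.Agent.P002Z

theorem lsc_chart (E : Type) [NormedAddCommGroup E] [NormedSpace ℝ E] (M : Type)
    [TopologicalSpace M] [ChartedSpace E M] : LSC M := by
  intro b O hO
  let c := chartAt E b
  have hb : b ∈ c.source := mem_chart_source E b
  have h1 : c.target ∩ c.symm ⁻¹' O ∈ 𝓝 (c b) :=
    inter_mem (c.open_target.mem_nhds (c.map_source hb))
      (c.continuousAt_symm (c.map_source hb) (by rwa [c.left_inv hb]))
  obtain ⟨r, hr, h2⟩ := Metric.mem_nhds_iff.1 h1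
  have h3 : Metric.ball (c b) r ⊆ c.symm.source := fun x hx => (h2 hx).1
  refine ⟨c.symm '' Metric.ball (c b) r, c.symm.isOpen_image_of_subset_source Metric.isOpen_ball h3,
    ⟨c b, Metric.mem_ball_self hr, c.left_inv hb⟩, ?_, ?_⟩
  · rintro _ ⟨x, hx, rfl⟩
    exact (h2 hx).2
  · have := (convex_ball (c b) r).contractibleSpace ⟨_, Metric.mem_ball_self hr⟩
    have := (c.symm.homeomorphOfImageSubsetSource h3 rfl).symm.contractibleSpace
    exact SimplyConnectedSpace.ofContractible _

theorem lsc_pi {k : ℕ} (E : Type) [NormedAddCommGroup E] [NormedSpace ℝ E] {M : Fin k → Type}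
    [∀ i, TopologicalSpace (M i)] [∀ i, ChartedSpace E (M i)] (D : ∀ i, Set (M i))
    (hD : ∀ i, IsClosed (D i)) : LSC (∀ i, ↥(D i)ᶜ) := by
  letI : ∀ i, ChartedSpace E ↥(D i)ᶜ := fun i =>
    TopologicalSpace.Opens.instChartedSpace (⟨(D i)ᶜ, (hD i).isOpen_compl⟩ :
      TopologicalSpace.Opens (M i))
  letI : ChartedSpace (Fin k → E) (∀ i, ↥(D i)ᶜ) := piChartedSpace (fun _ => E) _
  exact lsc_chart (Fin k → E) _

theorem fg_ext {G Q P : Type} [Group G] [Group Q] [Group P] (Φ : G →* Q)
    (hs : Function.Surjective Φ) (j : P →* G) (hk : Φ.ker ≤ j.range) [hP : Group.FG P]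
    [hQ : Group.FG Q] : Group.FG G := by
  obtain ⟨S, hS, fS⟩ := Group.fg_iff.1 hP
  obtain ⟨T, hT, fT⟩ := Group.fg_iff.1 hQ
  choose s hs' using hs
  refine Group.fg_iff.2 ⟨j '' S ∪ s '' T, eq_top_iff.2 fun g _ => ?_, (fS.image _).union (fT.image _)⟩
  have h1 : j.range ≤ Subgroup.closure (j '' S ∪ s '' T) := by
    rw [MonoidHom.range_eq_map, ← hS, MonoidHom.map_closure]
    exact Subgroup.closure_mono subset_union_left
  have h2 : (⊤ : Subgroup Q) ≤ (Subgroup.closure (j '' S ∪ s '' T)).map Φ := by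
    rw [← hT, Subgroup.closure_le]
    exact fun t ht => ⟨s t, Subgroup.subset_closure (Or.inr ⟨t, ht, rfl⟩), hs' t⟩
  obtain ⟨u, hu, e⟩ := h2 (Subgroup.mem_top (Φ g))
  have h3 : u⁻¹ * g ∈ Φ.ker := by rw [MonoidHom.mem_ker, map_mul, map_inv, e, inv_mul_cancel]
  simpa using mul_mem hu (h1 (hk h3))

theorem vs_of_le {G P : Type} [Group G] [Group P] (j : P →* G) {K : Subgroup G}
    (hK : K ≤ j.range) (h : ∃ H : Subgroup P, Group.IsSolvable H ∧ H.FiniteIndex) :
    ∃ H : Subgroup K, Group.IsSolvable H ∧ H.FiniteIndex := by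
  obtain ⟨H, hH, hf⟩ := h
  have h1 : Group.IsSolvable (H.map j) :=
    Group.isSolvable_of_surjective (j.subgroupMap_surjective H)
  refine ⟨(H.map j).subgroupOf K, Group.isSolvable_of_isSolvable_injective
    (f := (K.subtype.comp (Subgroup.subtype _)).codRestrict (H.map j) fun x => x.2)
    fun x y e => Subtype.ext (Subtype.ext (congrArg (fun z : H.map j => (z : G)) e)),
      ⟨fun h0 => ?_⟩⟩
  have h2 := Subgroup.relIndex_eq_zero_of_le_right hK h0
  rw [← Subgroup.index_comap] at h2
  exact (Subgroup.finiteIndex_of_le (H.le_comap_map j)).index_ne_zero h2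

variable {X B F : Type} [TopologicalSpace X] [TopologicalSpace B] [TopologicalSpace F]

theorem pc (p : C(X, B)) [PathConnectedSpace B] [PathConnectedSpace F]
    (h : ∀ b, ∃ e : Trivialization F p, b ∈ e.baseSet) : PathConnectedSpace X := by
  choose e he using h
  obtain ⟨f₀⟩ : Nonempty F := inferInstance
  have hs : Function.Surjective p := fun b =>
    ⟨(e b).toOpenPartialHomeomorph.symm (b, f₀), (e b).proj_symm_apply' (he b)⟩
  refine ⟨hs.nonempty, fun x y => ?_⟩
  exact path_induction (fun b => (e b).baseSet) (fun b => (e b).open_baseSet) univ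
    (fun b _ => mem_iUnion.2 ⟨b, he b⟩) (fun b b' _ => ∀ x y, p x = b → p y = b' → Joined x y)
    (fun _ _ _ _ _ h => h) (fun b b' b'' _ _ hα hβ x z hx hz => by
      obtain ⟨y, hy⟩ := hs b'
      exact (hα x y hx hy).trans (hβ y z hy hz))
    (fun i b b' α hα x y hx hy => ⟨(lift (e i) α (fun t => (hα t).2) hx hy).choose⟩)
    (PathConnectedSpace.somePath (p x) (p y)) (fun _ => mem_univ _) x y rfl rfl

theorem over {k : ℕ} {M : Fin k → Type} [∀ i, TopologicalSpace (M i)] (g : ∀ i, C(X, M i))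
    [PathConnectedSpace X] [PathConnectedSpace F] (hB : LSC (∀ i, M i))
    (h : ∀ b, ∃ e : Trivialization F (ContinuousMap.pi g), b ∈ e.baseSet) (x₀ : X) (f₀ : F) :
    Function.Surjective (MonoidHom.pi fun i => FundamentalGroup.map (g i) x₀) ∧
      ∃ j : FundamentalGroup F f₀ →* FundamentalGroup X x₀,
        ⨅ i, (FundamentalGroup.map (g i) x₀).ker ≤ j.range := by
  obtain ⟨h1, j, h2⟩ := bundle (ContinuousMap.pi g) hB h x₀ f₀
  have e : ∀ a i, FundamentalGroup.map (g i) x₀ a =
      Path.Homotopic.proj i (FundamentalGroup.map (ContinuousMap.pi g) x₀ a) := fun a i => by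
    obtain ⟨q, rfl⟩ := Path.Homotopic.Quotient.mk_surjective a
    rfl
  refine ⟨fun a => ?_, j, fun a ha => h2 ?_⟩
  · obtain ⟨q, hq⟩ := h1 (Path.Homotopic.pi a)
    exact ⟨q, funext fun i => (e q i).trans (by rw [hq]; exact Path.Homotopic.proj_pi i a)⟩
  · have h3 : ∀ b, FundamentalGroup.map (ContinuousMap.pi g) x₀ b =
        Path.Homotopic.pi fun i => FundamentalGroup.map (g i) x₀ b := fun b =>
      (Path.Homotopic.pi_proj _).symm.trans (congrArg _ (funext fun i => (e b i).symm))
    rw [MonoidHom.mem_ker, ← map_one (FundamentalGroup.map (ContinuousMap.pi g) x₀), h3, h3]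
    exact congrArg _ (funext fun i => by
      rw [map_one, MonoidHom.mem_ker.1 (Subgroup.mem_iInf.1 ha i)])

end Vale.Agent.P002B14
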