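import Vale.Agent.P002B14.Defs
import Vale.Agent.P002B14.Over
import Vale.Agent.P002F46.St
import Vale.Agent.P002G96.Geo
import Vale.Agent.P002Z.Fin

/-!
# P002: locally trivial families over products of curves lie over curves (helper14)
-/

set_option autoImplicit false
set_option linter.all false

open Vale.Agent.P299G40 (PN IsSmoothVariety)

namespace Vale.Agent.P002B14

open Vale.Agent.P002A Vale.Agent.P002F

theorem family {W : Type} [TopologicalSpace W] {E : Set W} (h : IsFamily E) :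
    PathConnectedSpace ↥Eᶜ ∧ ∀ x₀ : ↥Eᶜ, Group.FG (FundamentalGroup ↥Eᶜ x₀) ∧ OverCurves E x₀ := by
  obtain ⟨k, N, Z, D, f, g, F, _, y, hZ, hb, _, _, hH⟩ := h
  choose t2 cp cn ch mf hdisc using fun i => geo (N i) (Z i) (hZ i).1
  have : ∀ i, PathConnectedSpace ↥(D i)ᶜ := fun i =>
    isPathConnected_iff_pathConnectedSpace.1 (P002Z.isPathConnected_compl_finite (hZ i).2.1)
  have hX : PathConnectedSpace ↥Eᶜ := pc (ContinuousMap.pi g) hb
  refine ⟨hX, fun x₀ => ?_⟩
  obtain ⟨h1, j, h2⟩ := P002B14.over g (lsc_pi ℂ D fun i => (hZ i).2.1.isClosed) hb x₀ y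
  have : ∀ i, Group.FG (FundamentalGroup ↥(D i)ᶜ (g i x₀)) := fun i => by
    obtain ⟨n, φ, hφ, -⟩ := (P002Z.curves (hZ i).2.1 (g i x₀)).1
    exact Group.fg_of_surjective hφ
  refine ⟨fg_ext _ h1 j fun a ha => h2 (Subgroup.mem_iInf.2 fun i => congrFun ha i),
    k, N, Z, D, f, g, fun i => ⟨(hZ i).1, (hZ i).2.1, (hZ i).2.2, ?_⟩, vs_of_le j h2 hH⟩
  have : (FundamentalGroup.map (g i) x₀).range = ⊤ := MonoidHom.range_eq_top.2 fun a => by
    obtain ⟨b, hb⟩ := h1 (Pi.mulSingle i a)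
    exact ⟨b, (congrFun hb i).trans (Pi.mulSingle_eq_same
      (M := fun i => FundamentalGroup ↥(D i)ᶜ (g i x₀)) i a)⟩
  rw [this]
  infer_instance

end Vale.Agent.P002B14
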