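import Vale.Agent.P002F46.Fib

/-!
# P002: density for spaces over curves, also for all small loops
-/

open Set Matrix Metric Topology Filter
open scoped Real
open Vale.Agent.P299G40 (PN IsSmoothVariety)

namespace Vale.Agent.P002B14

open Vale.Agent.P002A Vale.Agent.P002C Vale.Agent.P002Z Vale.Agent.P002F Vale.Agent.P002.H252

theorem conj_free {X : Type} [TopologicalSpace X] [PathConnectedSpace X] {x0 y : X}
    (σ : Path x0 y) (c : Path y y) (Ψ : C(ℝ × ℝ, X)) (h1 : ∀ t : unitInterval, Ψ (1, t) = c t)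
    (hp : ∀ s, Ψ (s, 1) = Ψ (s, 0)) (l : ℝ) :
    ∃ (ρ : Path y (Ψ (l, 0))) (c' : Path (Ψ (l, 0)) (Ψ (l, 0))),
      (∀ t, c' t = Ψ (l, t)) ∧ conjLoop σ c = conjLoop (σ.trans ρ) c' := by
  obtain ⟨κ, hκ, -⟩ := exists_univ x0
  have hnull : Null (univ : Set (ℝ × ℝ)) := fun x q _ => SimplyConnectedSpace.paths_homotopic _ _
  obtain ⟨τ, hτ⟩ := hnull.exists_pot (κ.comap Ψ)
  have hseg : ∀ a a' : ℝ × ℝ, (κ.comap Ψ).v (Path.segment a a') = (τ a')⁻¹ * τ a := fun a a' =>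
    hτ _ _ _ fun _ => mem_univ _
  have hy : y = Ψ (1, 0) := c.source.symm.trans (h1 0).symm
  have hv : ∀ (s : ℝ) (t : unitInterval), Path.segment ((s, 0) : ℝ × ℝ) (s, 1) t = (s, (t : ℝ)) :=
    fun s t => by simp [Path.segment_apply, AffineMap.lineMap_apply]
  have hh : ∀ (u : ℝ) (t : unitInterval), Path.segment ((1, u) : ℝ × ℝ) (l, u) t =
      ((t : ℝ) * (l - 1) + 1, u) := fun u t => by
    simp [Path.segment_apply, AffineMap.lineMap_apply]
  let c' : Path (Ψ (l, 0)) (Ψ (l, 0)) :=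
    ((Path.segment ((l, 0) : ℝ × ℝ) (l, 1)).map Ψ.continuous).cast rfl (hp l).symm
  let ρ : Path y (Ψ (l, 0)) :=
    ((Path.segment ((1, 0) : ℝ × ℝ) (l, 0)).map Ψ.continuous).cast hy rfl
  refine ⟨ρ, c', fun t => congrArg Ψ (hv l t), ?_⟩
  have e1 : κ.v c = (τ (1, 1))⁻¹ * τ (1, 0) := by
    rw [← hseg]
    exact κ.congr (q := (Path.segment ((1, 0) : ℝ × ℝ) (1, 1)).map Ψ.continuous) fun t =>
      (h1 t).symm.trans (congrArg Ψ (hv 1 t).symm)
  have e2 : κ.v c' = (τ (l, 1))⁻¹ * τ (l, 0) := by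
    rw [← hseg]
    exact κ.congr fun _ => rfl
  have e3 : κ.v ρ = (τ (l, 0))⁻¹ * τ (1, 0) := by
    rw [← hseg]
    exact κ.congr fun _ => rfl
  have e4 : κ.v ρ = (τ (l, 1))⁻¹ * τ (1, 1) := by
    rw [← hseg]
    refine κ.congr (q := (Path.segment ((1, 1) : ℝ × ℝ) (l, 1)).map Ψ.continuous) fun t => ?_
    change Ψ (Path.segment ((1, 0) : ℝ × ℝ) (l, 0) t) = Ψ (Path.segment ((1, 1) : ℝ × ℝ) (l, 1) t)
    rw [hh, hh, hp]
  rw [← hκ (conjLoop σ c), ← hκ (conjLoop (σ.trans ρ) c'), κ.toHom_conjLoop, κ.toHom_conjLoop,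
    κ.trans, e1, e2]
  have e5 : τ (1, 1) = τ (l, 1) * κ.v ρ := by rw [e4]; group
  have e6 : τ (1, 0) = τ (l, 0) * κ.v ρ := by rw [e3]; group
  rw [e5, e6]
  group

theorem small {M : Type} [TopologicalSpace M] [T1Space M] [ChartedSpace ℂ M] {D : Set M}
    (hD : D.Finite) [PathConnectedSpace ↥Dᶜ] (x0 : ↥Dᶜ) (q : M) :
    ∃ O ∈ 𝓝 q, ∀ (y : ↥Dᶜ) (σ : Path x0 y) (c : Path y y), (∀ t, (c t : M) ∈ O) →
      conjLoop σ c = 1 ∨ (q ∈ D ∧ LocalAt D x0 q (conjLoop σ c)) := by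
  let e := chartAt ℂ q
  have hq : q ∈ e.source := mem_chart_source ℂ q
  have hz : e q ∈ e.target := e.map_source hq
  have hcs : ContinuousAt e.symm (e q) := e.continuousAt_symm hz
  have hsq : e.symm (e q) = q := e.left_inv hq
  have hN : ∀ O ∈ 𝓝 q, e.symm ⁻¹' O ∈ 𝓝 (e q) := fun O hO => hcs (hsq.symm ▸ hO)
  obtain ⟨ε, hε, hb⟩ := Metric.mem_nhds_iff.1 (inter_mem (e.open_target.mem_nhds hz)
    (hN _ (eventually_nhdsWithin_iff.1 (eventually_notMem_of_finite hD q))))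
  refine ⟨e.source ∩ e ⁻¹' ball (e q) ε, inter_mem (e.open_source.mem_nhds hq)
    (e.continuousAt hq (ball_mem_nhds _ hε)), fun y σ c hc => ?_⟩
  have hc' : ∀ t : ℝ, (c.extend t : M) ∈ e.source ∩ e ⁻¹' ball (e q) ε := fun t => hc _
  let w : ℝ → ℂ := fun t => e (c.extend t : M) - e q
  have hw : Continuous w := by
    refine Continuous.sub (continuous_iff_continuousAt.2 fun t => ?_) continuous_const
    exact (e.continuousAt (hc' t).1).comp (f := fun t : ℝ => (c.extend t : M))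
      (continuous_subtype_val.comp c.continuous_extend).continuousAt
  have hwn : ∀ t, ‖w t‖ < ε := fun t => mem_ball_iff_norm.1 (hc' t).2
  have key : ∀ l : ℝ, 0 ≤ l → l ≤ 1 → (q ∈ D → 0 < l) → ∃ (y' : ↥Dᶜ) (ρ : Path y y')
      (c' : Path y' y'), (∀ t, (c' t : M) = e.symm (e q + l • w t)) ∧
        conjLoop σ c = conjLoop (σ.trans ρ) c' := by
    intro l h0 h1 hl
    let m : ℝ → ℝ := fun s => max l (min s 1)
    have hm : Continuous m := by fun_prop
    have hm0 : ∀ s, l ≤ m s := fun s => le_max_left _ _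
    have hm1 : ∀ s, m s ≤ 1 := fun s => max_le h1 (min_le_right _ _)
    let z : ℝ × ℝ → ℂ := fun a => e q + m a.1 • w a.2
    have hzc : Continuous z := by fun_prop
    have hzb : ∀ a, z a ∈ ball (e q) ε := fun a => by
      rw [mem_ball_iff_norm, add_sub_cancel_left, norm_smul,
        Real.norm_of_nonneg (h0.trans (hm0 _))]
      exact (mul_le_of_le_one_left (norm_nonneg _) (hm1 _)).trans_lt (hwn _)
    have hzD : ∀ a, e.symm (z a) ∉ D := fun a hDa => by
      have h2 : e.symm (z a) = q := by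
        by_contra hne
        exact (hb (hzb a)).2 hne hDa
      have h3 : z a = e q := by rw [← h2, e.right_inv (hb (hzb a)).1]
      have h4 : q ∈ D := h2 ▸ hDa
      have h5 : w a.2 = 0 := (smul_eq_zero.1 (add_eq_left.1 h3)).resolve_left
        ((hl h4).trans_le (hm0 _)).ne'
      exact (c.extend a.2).2 (e.injOn (hc' _).1 hq (sub_eq_zero.1 h5) ▸ h4)
    let Ψ : C(ℝ × ℝ, ↥Dᶜ) := ⟨fun a => ⟨e.symm (z a), hzD a⟩,
      (continuous_iff_continuousAt.2 fun a =>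
        (e.continuousAt_symm (hb (hzb a)).1).comp hzc.continuousAt).subtype_mk _⟩
    obtain ⟨ρ, c', h2, h3⟩ := conj_free σ c Ψ (fun t => Subtype.ext (by
      change e.symm (e q + max l (min 1 1) • (e (c.extend t : M) - e q)) = _
      rw [min_self, max_eq_right h1, one_smul, add_sub_cancel, e.left_inv (hc' t).1,
        Path.extend_extends'])) (fun s => Subtype.ext (by
      change e.symm (e q + m s • (e (c.extend 1 : M) - e q)) =
        e.symm (e q + m s • (e (c.extend 0 : M) - e q))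
      rw [c.extend_one, c.extend_zero])) l
    refine ⟨_, ρ, c', fun t => ?_, h3⟩
    rw [h2]
    change e.symm (e q + max l (min l 1) • w t) = _
    rw [min_eq_left h1, max_self]
  by_cases hqD : q ∈ D
  · refine Or.inr ⟨hqD, fun O hO => ?_⟩
    obtain ⟨δ, hδ, hO'⟩ := Metric.mem_nhds_iff.1 (hN O hO)
    have hl : 0 < min 1 (δ / ε) := lt_min one_pos (div_pos hδ hε)
    obtain ⟨y', ρ, c', h2, h3⟩ := key _ hl.le (min_le_left _ _) fun _ => hl
    refine ⟨y', σ.trans ρ, c', fun t => ?_, h3⟩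
    rw [h2]
    refine hO' ?_
    rw [mem_ball_iff_norm, add_sub_cancel_left, norm_smul, Real.norm_of_nonneg hl.le]
    exact (mul_lt_mul_of_pos_left (hwn _) hl).trans_le ((le_div_iff₀ hε).1 (min_le_right _ _))
  · obtain ⟨y', ρ, c', h2, h3⟩ := key 0 le_rfl zero_le_one fun h => absurd h hqD
    obtain ⟨κ, hκ, -⟩ := exists_univ x0
    have h4 : κ.v c' = 1 := by
      rw [← κ.refl y']
      refine κ.congr fun t => Subtype.ext ?_
      rw [h2, Path.refl_apply, ← c'.source, h2, zero_smul, zero_smul]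
    left
    rw [h3, ← hκ (conjLoop _ c'), κ.toHom_conjLoop, h4, mul_one, inv_mul_cancel]

theorem fib2 {W : Type} [TopologicalSpace W] {E : Set W} {x₀ : ↥Eᶜ} (h : OverCurves E x₀) :
    ∃ O : W → Set W, (∀ p, O p ∈ 𝓝 p) ∧ Dens (FundamentalGroup ↥Eᶜ x₀)
      ({γ | ∃ p, Around E x₀ p γ} ∪ {γ | ∃ p y, ∃ (σ : Path x₀ y) (c : Path y y),
        (∀ t, (c t : W) ∈ O p) ∧ γ = conjLoop σ c}) := by
  obtain ⟨k, N, Z, D, f, g, hi, hK⟩ := h
  have hc : ∀ i, PathConnectedSpace ↥(D i)ᶜ ∧ (∀ q, ∃ O ∈ 𝓝 q, ∀ (y : ↥(D i)ᶜ)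
      (σ : Path (g i x₀) y) (c : Path y y), (∀ t, (c t : An (Z i)) ∈ O) →
        conjLoop σ c = 1 ∨ (q ∈ D i ∧ LocalAt (D i) (g i x₀) q (conjLoop σ c))) ∧
      ∃ (a n : ℕ) (m : Fin n → ℕ)
      (δ : G0 a n → FundamentalGroup ↥(D i)ᶜ (g i x₀)), IsOrb a n m _ δ ∧
      ∀ p ∈ D i, ∀ γ, LocalAt (D i) (g i x₀) p γ →
        ∃ (l : Fin n) (h : FundamentalGroup ↥(D i)ᶜ (g i x₀)) (a : ℤ),
          γ = h * δ (Sum.inr l) ^ a * h⁻¹ := fun i => by
    obtain ⟨_, _, _, _, _, -⟩ := geo (N i) (Z i) (hi i).1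
    have : PathConnectedSpace ↥(D i)ᶜ := isPathConnected_iff_pathConnectedSpace.1
      (isPathConnected_compl_finite (hi i).2.1)
    exact ⟨this, small (hi i).2.1 _, curve_isOrb (hi i).2.1 _⟩
  choose hpc hsm a n m δ hδ hper using hc
  choose O hO hOs using hsm
  refine ⟨fun p => ⋂ i, f i ⁻¹' O i (f i p), fun p => iInter_mem.2 fun i =>
    (f i).continuous.continuousAt (hO i _), ?_⟩
  refine dens_of_key fun ι _ R θ r s w C hw hC =>
    dense_of_maps hδ (fun i => FundamentalGroup.map (g i) x₀) (fun i => (hi i).2.2.2) hK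
      R θ r s w C (fun j i => ?_) hC
  have := hpc i
  rcases hw j with ⟨p, φ, y, σ, c, h1, -, h2, h3, h4⟩ | ⟨p, y, σ, c, h1, h4⟩
  · have e : FundamentalGroup.map (g i) x₀ (θ (PresentedGroup.mk R (w j))) =
        conjLoop (σ.map (g i).continuous) (c.map (g i).continuous) := by
      rw [h4]
      exact map_conjLoop (g i) σ c
    have c1 : ∀ u ∈ closedBall (0 : ℂ) 1, ContinuousAt (fun u => f i (φ u)) u := fun u hu =>
      (f i).continuous.continuousAt.comp (h1 u hu)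
    have c2 : ∀ u ∈ closedBall (0 : ℂ) 1, f i (φ u) ∈ D i → u = 0 := fun u hu hD => by
      by_contra hne
      have h5 := (g i ⟨φ u, fun hE => hne (h2 u hu hE)⟩).2
      rw [(hi i).2.2.1] at h5
      exact h5 hD
    have c3 : ∀ t, ((c.map (g i).continuous) t : An (Z i)) =
        f i (φ (circleMap 0 1 (2 * π * t))) := fun t => by
      rw [← h3]
      exact (hi i).2.2.1 _
    rw [e]
    by_cases h0 : f i (φ 0) ∈ D i
    · exact Or.inr (hper i _ h0 _ (localAt_of c1 c2 _ _ c3))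
    · refine Or.inl (null_of c1 (fun u hu hD => ?_) _ _ c3)
      exact h0 (c2 u hu hD ▸ hD)
  · rw [h4, map_conjLoop]
    refine (hOs i (f i p) _ _ _ fun t => ?_).imp id fun h => hper i _ h.1 _ h.2
    exact ((hi i).2.2.1 (c t)).symm ▸ mem_iInter.1 (h1 t) i

end Vale.Agent.P002B14
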