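import Vale.Agent.P002Z.PF
import Mathlib.Tactic.Group

/-!
# Removing a thin subset (helper14)
-/

set_option autoImplicit false
set_option linter.all false

namespace Vale.Agent.P002B14

open Set Filter Topology Vale.Agent.P002Z

variable {X Y : Type} [TopologicalSpace X] [TopologicalSpace Y]

/-- small simply connected open sets have path connected preimages -/
def Th (ι : C(Y, X)) : Prop :=
  ∀ x : X, ∀ O ∈ 𝓝 x, ∃ U, IsOpen U ∧ x ∈ U ∧ U ⊆ O ∧ IsSimplyConnected U ∧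
    IsPathConnected (ι ⁻¹' U)

theorem fill_surj {ι : C(Y, X)} (h : Th ι) {G : Type} [Group G] (κ : PF X G) (u0 y : Y)
    (a : Path (ι u0) (ι y)) : ∃ b : Path u0 y, κ.v (b.map ι.continuous) = κ.v a := by
  choose U hUo hUx _ hU hU' using fun x => h x univ univ_mem
  choose τ hτ using fun x => (null_of_isSimplyConnected (hU x)).exists_pot κ
  let Good : X → G → Prop := fun y g => ∃ (x : X) (y' : Y) (b : Path u0 y')
    (r : Path (ι y') y), (∀ t, r t ∈ U x) ∧ g = κ.v r * κ.v (b.map ι.continuous)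
  have key : ∀ x y' y'' z (r : Path (ι y') z) (r' : Path (ι y'') z), (∀ t, r t ∈ U x) →
      (∀ t, r' t ∈ U x) → ∃ b : Path y' y'', κ.v r = κ.v r' * κ.v (b.map ι.continuous) := by
    intro x y' y'' z r r' hr hr'
    obtain ⟨b, hb⟩ := (hU' x).joinedIn y' (by simpa using hr 0) y'' (by simpa using hr' 0)
    refine ⟨b, ?_⟩
    rw [hτ x _ _ r hr, hτ x _ _ r' hr', hτ x _ _ (b.map ι.continuous) hb]
    group
  obtain ⟨x, y', b, r, hr, e⟩ := path_induction U hUo univ (fun x _ => mem_iUnion.2 ⟨x, hUx x⟩)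
    (fun x y p => ∀ g, Good x g → Good y (κ.v p * g))
    (fun x y p q h hp g hg => by rw [← κ.hom h]; exact hp g hg)
    (fun x y z p q hp hq g hg => by rw [κ.trans, mul_assoc]; exact hq _ (hp g hg))
    (fun z x y p hp g hg => by
      obtain ⟨w, y', b, r, hr, rfl⟩ := hg
      obtain ⟨V, -, hxV, hVU, hV, hV'⟩ := h x _ (((hUo w).inter (hUo z)).mem_nhds
        ⟨by simpa using hr 1, by simpa using (hp 0).2⟩)
      obtain ⟨y'', hy''⟩ := hV'.nonempty
      obtain ⟨r', hr'⟩ := hV.isPathConnected.joinedIn _ hy'' x hxV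
      obtain ⟨b', hb'⟩ := key w y' y'' x r r' hr fun t => (hVU (hr' t)).1
      refine ⟨z, y'', b.trans b', r'.trans p, fun t => ?_, by
        rw [hb', Path.map_trans, κ.trans, κ.trans]; group⟩
      have : (r'.trans p) t ∈ range (r'.trans p) := ⟨t, rfl⟩
      rw [Path.trans_range] at this
      rcases this with ⟨u, hu⟩ | ⟨u, hu⟩
      · exact hu ▸ (hVU (hr' u)).2
      · exact hu ▸ (hp u).2) a (fun _ => mem_univ _) 1
    ⟨ι u0, u0, Path.refl u0, Path.refl _, fun _ => hUx _, by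
      rw [κ.refl, one_mul, κ.congr (p := (Path.refl u0).map ι.continuous)
        (q := Path.refl (ι u0)) fun _ => rfl, κ.refl]⟩
  obtain ⟨b', hb'⟩ := key x y' y _ r (Path.refl _) hr fun _ => by simpa using hr 1
  refine ⟨b.trans b', ?_⟩
  rw [mul_one, hb', κ.refl, one_mul] at e
  rw [e, Path.map_trans, κ.trans]

theorem fill {ι : C(Y, X)} (h : Th ι) [PathConnectedSpace Y] [PathConnectedSpace X] (y₀ : Y)
    (O : X → Set X) (hO : ∀ x, O x ∈ 𝓝 x) : Function.Surjective (FundamentalGroup.map ι y₀) ∧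
      ∃ S : Set (FundamentalGroup Y y₀), (∀ γ ∈ S, ∃ x y, ∃ (σ : Path y₀ y) (c : Path y y),
        (∀ t, ι (c t) ∈ O x) ∧ γ = conjLoop σ c) ∧ S ⊆ (FundamentalGroup.map ι y₀).ker ∧
        (FundamentalGroup.map ι y₀).ker ≤ Subgroup.normalClosure S := by
  obtain ⟨l, hl, -⟩ := exists_univ (ι y₀)
  have hm : ∀ q : Path y₀ y₀, FundamentalGroup.map ι y₀ (Path.Homotopic.Quotient.mk q) =
      (l.comap ι).v q := fun q => (hl _).symm
  refine ⟨fun a => ?_, ?_⟩
  · obtain ⟨α, rfl⟩ := Path.Homotopic.Quotient.mk_surjective a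
    obtain ⟨b, hb⟩ := fill_surj h l y₀ y₀ α
    exact ⟨Path.Homotopic.Quotient.mk b, (hm b).trans (hb.trans (hl (Path.Homotopic.Quotient.mk α)))⟩
  choose U hUo hUx hUO hU hU' using fun x => h x _ (hO x)
  let S : Set (FundamentalGroup Y y₀) := {γ | ∃ x y, ∃ (σ : Path y₀ y) (c : Path y y),
    (∀ t, ι (c t) ∈ U x) ∧ γ = conjLoop σ c}
  refine ⟨S, fun γ ⟨x, y, σ, c, hc, e⟩ => ⟨x, y, σ, c, fun t => hUO x (hc t), e⟩, ?_, ?_⟩
  · rintro γ ⟨x, y, σ, c, hc, rfl⟩
    have h1 : (l.comap ι).v c = 1 :=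
      (l.hom (null_of_isSimplyConnected (hU x) _ (c.map ι.continuous) hc)).trans (l.refl _)
    refine MonoidHom.mem_ker.2 ((hm _).trans ?_)
    rw [PF.trans, PF.trans, PF.symm, h1]
    group
  obtain ⟨κ, hκ, -⟩ := exists_univ y₀
  let κ' := κ.post (QuotientGroup.mk' (Subgroup.normalClosure S))
  choose τ hτ using fun x => κ'.exists_pot (V := ι ⁻¹' U x) fun y c hc => by
    let σ := PathConnectedSpace.somePath y₀ y
    have h1 := Subgroup.normalClosure_normal.conj_mem _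
      (Subgroup.subset_normalClosure (s := S) ⟨x, y, σ, c, hc, rfl⟩) (κ.v σ)
    rw [← hκ (conjLoop σ c), κ.toHom_conjLoop] at h1
    refine (QuotientGroup.eq_one_iff _).2 ?_
    convert h1 using 1
    group
  have ex : ∀ i k x, x ∈ U i ∩ U k → ∃ g, ∀ᶠ x' in 𝓝 x, ∀ u, ι u = x' →
      τ k u * (τ i u)⁻¹ = g := fun i k x hx => by
    obtain ⟨V, hV, hxV, hVU, -, hV'⟩ := h x _ (((hUo i).inter (hUo k)).mem_nhds hx)
    obtain ⟨u, hu⟩ := hV'.nonempty
    refine ⟨τ k u * (τ i u)⁻¹, ?_⟩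
    filter_upwards [hV.mem_nhds hxV]
    rintro _ hv v rfl
    obtain ⟨q, hq⟩ := hV'.joinedIn u hu v hv
    have h1 := hτ i u v q fun t => (hVU (hq t)).1
    have h2 := hτ k u v q fun t => (hVU (hq t)).2
    have h3 : τ k u = τ k v * ((τ i v)⁻¹ * τ i u) := by rw [← h1, h2]; group
    rw [h3]; group
  have fr : ∀ x (p : X → Prop), (∀ᶠ x' in 𝓝 x, p x') → ∃ u, p (ι u) := fun x p hp => by
    obtain ⟨V, -, -, hV, -, u, hu, -⟩ := h x _ hp
    exact ⟨u, hV hu⟩
  choose! g hg using ex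
  obtain ⟨φ, t, hφ, ht⟩ := exists_holonomy U hUo (fun b => ⟨b, hUx b⟩) g (fun i k x hx => by
      filter_upwards [(hg i k x hx).eventually_nhds, ((hUo i).inter (hUo k)).mem_nhds hx]
        with y h1 h2
      obtain ⟨u, h3, h4⟩ := fr y _ (h1.and (hg i k y h2))
      rw [← h3 u rfl, h4 u rfl]) fun i k m x hx => by
      obtain ⟨u, h3, h4, h5⟩ := fr x _ ((hg i k x hx.1).and
        ((hg k m x ⟨hx.1.2, hx.2⟩).and (hg i m x ⟨hx.1.1, hx.2⟩)))
      rw [← h3 u rfl, ← h4 u rfl, ← h5 u rfl]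
      group
  let c : Y → _ := fun x => (t (ι x) (ι x))⁻¹ * τ (ι x) x
  have hc : ∀ i x, ι x ∈ U i → c x = (t i (ι x))⁻¹ * τ i x := fun i x hx => by
    have h1 := ht i (ι x) (ι x) ⟨hx, hUx _⟩
    rw [← (hg i (ι x) (ι x) ⟨hx, hUx _⟩).self_of_nhds x rfl] at h1
    simp only [c]
    rw [h1]; group
  intro a ha
  obtain ⟨q, rfl⟩ := Path.Homotopic.Quotient.mk_surjective a
  have h1 := path_induction (fun i => ι ⁻¹' U i) (fun i => (hUo i).preimage ι.continuous) univ
    (fun x _ => mem_iUnion.2 ⟨ι x, hUx _⟩)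
    (fun x y q => κ'.v q = (c y)⁻¹ * (φ.comap ι).v q * c x)
    (fun x y q r H hq => by rw [← κ'.hom H, ← (φ.comap ι).hom H]; exact hq)
    (fun x y z q r hq hr => by rw [κ'.trans, (φ.comap ι).trans, hq, hr]; group)
    (fun i x y q hq => by
      have h2 : (φ.comap ι).v q = _ := hφ i _ _ (q.map ι.continuous) fun t => (hq t).2
      rw [h2, hτ i x y q fun t => (hq t).2, hc i x (by simpa using (hq 0).2),
        hc i y (by simpa using (hq 1).2)]
      group) q fun _ => mem_univ _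
  have h2 : (φ.comap ι).v q = 1 := by
    change φ.toHom _ (FundamentalGroup.map ι y₀ (Path.Homotopic.Quotient.mk q)) = 1
    rw [MonoidHom.mem_ker.1 ha, map_one]
  rw [h2, mul_one, inv_mul_cancel] at h1
  rw [← hκ (Path.Homotopic.Quotient.mk q), κ.toHom_mk]
  exact (QuotientGroup.eq_one_iff _).1 h1

end Vale.Agent.P002B14
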