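import Vale.Agent.P002F46.Fib

/-!
# P002: density passes to quotients by allowed loops (helper14)
-/

set_option autoImplicit false
set_option linter.all false

open Set Matrix Topology

namespace Vale.Agent.P002B14

open Vale.Agent.P002A Vale.Agent.P002C Vale.Agent.P002F

theorem dens_of_k2 {G : Type} [Group G] {P : Set G}
    (k2 : ∀ (ι : Type) [Finite ι] (R : Set (FreeGroup ι)) (θ : PresentedGroup R ≃* G) (r s : ℕ)
      (γ : Fin s → G) (C : Fin s → SpecialLinearGroup (Fin r) ℂ),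
      (∀ j, γ j ∈ P) → (∀ j, IsQuasiUnipotent (C j)) →
      ∃ L : IntermediateField ℚ ℂ, FiniteDimensional ℚ L ∧
        repLocus θ γ C ⊆ closure (intPts _ L ∩ repLocus θ γ C)) : Dens G P := by
  intro ι _ R θ r
  refine ⟨fun A _ => represents θ, ?_, fun s γ C hγ hC => ?_⟩
  · obtain ⟨L, hL, h⟩ := k2 ι R θ r 0 Fin.elim0 Fin.elim0 (fun j => j.elim0) fun j => j.elim0
    exact ⟨L, hL, denseIn_image _ h (mapsTo_univ _ _) (univ_subset θ ss)⟩
  · obtain ⟨L, hL, h⟩ := one_field θ γ (fun B hB => by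
      obtain ⟨L, hL, h⟩ := k2 ι R θ r s γ B hγ hB
      exact ⟨L, hL, denseIn_image (RingHom.id _) h (fun _ hx => hx)
        fun x hx => subset_closure ⟨x, hx, rfl⟩⟩) C hC
    exact ⟨L, hL, fun T hT =>
      ⟨(h T hT).1, (h T hT).2, fun hc => imageIn_eq θ γ T hc fun j => (hT j).2⟩⟩

theorem fin_sub {G ι : Type} [Group G] [Finite ι] {R : Set (FreeGroup ι)}
    (θ : PresentedGroup R ≃* G) (r : ℕ) (S : Set G) : ∃ (n : ℕ) (u : Fin n → G),
      (∀ j, u j ∈ S) ∧ ∀ ρ : G →* SpecialLinearGroup (Fin r) ℂ, (∀ j, ρ (u j) = 1) →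
        ∀ g ∈ S, ρ g = 1 := by
  choose w hw using fun g => (θ.surjective.comp (PresentedGroup.mk_surjective R)) g
  let e : S × Fin r × Fin r → ORep r R := fun q =>
    ((FreeGroup.lift (gens (RingHom.id (ORep r R))) (w q.1)).1 - 1) q.2.1 q.2.2
  have he : ∀ ρ (x : ORep r R →+* ℂ), IsPointOf θ ρ x → ∀ q,
      x (e q) = ((ρ q.1).1 - 1) q.2.1 q.2.2 := fun ρ x hx q => by
    refine (map_sub_one x _ _ _).trans ?_
    rw [← lift_map, show (fun p => SpecialLinearGroup.map x (gens (RingHom.id _) p)) = gens x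
      from rfl, hx.lift θ]
    exact congrArg (fun g => ((ρ g).1 - 1) q.2.1 q.2.2) (hw q.1)
  have := Algebra.FiniteType.isNoetherianRing ℤ (ORep r R)
  obtain ⟨s, hs, hsp⟩ := (Submodule.fg_span_iff_fg_span_finset_subset (R := ORep r R)
    (range e)).1 (IsNoetherian.noetherian _)
  choose q hq using fun a : s => hs a.2
  refine ⟨_, fun j => (q (s.equivFin.symm j)).1, fun j => (q _).1.2, fun ρ hρ g hg => ?_⟩
  obtain ⟨x, hx⟩ := exists_of_hom θ ρ
  have h1 : Submodule.span (ORep r R) (s : Set (ORep r R)) ≤ RingHom.ker x :=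
    Submodule.span_le.2 fun a ha => by
      have h2 := hρ (s.equivFin ⟨a, ha⟩)
      simp only [Equiv.symm_apply_apply] at h2
      have h3 := he ρ x hx (q ⟨a, ha⟩)
      rw [hq, h2] at h3
      exact h3.trans (by simp)
  refine Subtype.ext (sub_eq_zero.1 (Matrix.ext fun i j => ?_))
  exact (he ρ x hx (⟨g, hg⟩, i, j)).symm.trans (h1 (hsp ▸ Submodule.subset_span ⟨_, rfl⟩))

theorem clos_of_surj {B B' : Type} [CommRing B] [CommRing B'] {ψ : B →+* B'}
    (h : Function.Surjective ψ) {x : CPt B'} {S : Set (CPt B')}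
    (hx : res ψ x ∈ closure (res ψ '' S)) : x ∈ closure S := by
  refine mem_closure_cpt.2 fun f hf => ?_
  obtain ⟨f', rfl⟩ : ∃ f', bc ψ f' = f := by
    clear hf
    induction f using TensorProduct.induction_on with
    | zero => exact ⟨0, map_zero _⟩
    | tmul a b =>
      obtain ⟨b, rfl⟩ := h b
      exact ⟨TensorProduct.tmul ℤ a b, rfl⟩
    | add a b ha hb =>
      obtain ⟨a, rfl⟩ := ha
      obtain ⟨b, rfl⟩ := hb
      exact ⟨a + b, map_add _ _ _⟩
  rw [← ev_res]
  refine mem_closure_cpt.1 hx f' ?_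
  rintro _ ⟨y, hy, rfl⟩
  rw [ev_res]
  exact hf y hy

theorem quo {G H : Type} [Group G] [Group H] [hG : Group.FG G] (π : G →* H)
    (hπ : Function.Surjective π) {P S : Set G} (hS : S ⊆ P) (h1 : S ⊆ π.ker)
    (h2 : π.ker ≤ Subgroup.normalClosure S) (h : Dens G P) : Dens H (π '' P) := by
  refine dens_of_k2 fun ι _ R θ r s γ C hγ hC => ?_
  obtain ⟨κ, _, φ, hφ⟩ := Group.fg_iff_exists_freeGroup_hom_surjective_finite.1 hG
  let θ' : PresentedGroup (φ.ker : Set (FreeGroup κ)) ≃* G :=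
    (QuotientGroup.quotientMulEquivOfEq (Subgroup.normalClosure_eq_self φ.ker)).trans
      (QuotientGroup.quotientKerEquivOfSurjective φ hφ)
  obtain ⟨n, u, hu, hu'⟩ := fin_sub θ' r S
  choose γ' hγ' hγ'' using hγ
  obtain ⟨L, hL, hd⟩ := (h κ _ θ' r).2.2 (s + n) (Fin.append γ' u) (Fin.append C fun _ => 1)
    (Fin.addCases (fun j => by simpa using hγ' j) fun j => by simpa using hS (hu j))
    (Fin.addCases (fun j => by simpa using hC j) fun j => by
      rw [Fin.append_right]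
      intro z hz
      refine ⟨1, one_pos, ?_⟩
      rcases subsingleton_or_nontrivial (Matrix (Fin r) (Fin r) ℂ) with h | h
      · exact absurd (isUnit_of_subsingleton _) hz
      · simpa using hz)
  replace hd := (hd _ fun j => adm_class _).2.1.1
  rw [Subtype.dense_iff, Subtype.image_preimage_coe] at hd
  obtain ⟨τ, hτ⟩ := exists_hom θ (RingHom.id (ORep r R))
  obtain ⟨ψ, hψ⟩ := exists_of_hom θ' (τ.comp π)
  have hp : ∀ ρ (x : ORep r R →+* ℂ), IsPointOf θ ρ x → IsPointOf θ' (ρ.comp π) (x.comp ψ) :=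
    fun ρ x hx p => by
      have e : ρ = (SpecialLinearGroup.map x).comp τ := ((represents θ).2 x).unique hx
        fun p => congrArg (SpecialLinearGroup.map x) (hτ p)
      rw [e]
      exact congrArg (SpecialLinearGroup.map x) (hψ p)
  have hsur : Function.Surjective ψ := fun b => by
    obtain ⟨F, rfl⟩ := cls_surj b
    have hX : ∀ q, cls r R (MvPolynomial.X q) ∈ ψ.range := fun ⟨p, i, j⟩ => by
      obtain ⟨g, hg⟩ := hπ (θ (PresentedGroup.of p))
      obtain ⟨w, rfl⟩ := (θ'.surjective.comp (PresentedGroup.mk_surjective _)) g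
      refine ⟨(FreeGroup.lift (gens (RingHom.id _)) w).1 i j, ?_⟩
      have e1 := (lift_map ψ (gens (RingHom.id _)) w).symm.trans (hψ.lift θ' w)
      have e2 := e1.trans ((congrArg τ hg).trans (hτ p).symm)
      exact congrArg (fun A => A.1 i j) e2
    change cls r R F ∈ ψ.range
    induction F using MvPolynomial.induction_on with
    | C a => rw [eq_intCast MvPolynomial.C, map_intCast]; exact intCast_mem _ a
    | add f g hf hg => rw [map_add]; exact add_mem hf hg
    | mul_X f q hf => rw [map_mul]; exact mul_mem hf (hX q)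
  refine ⟨L, hL, fun x ⟨ρ, hx, hss, hc⟩ => clos_of_surj hsur (closure_mono ?_
    (hd (a := res ψ x) ⟨ρ.comp π, hp ρ x hx, (ss_iff _).2 fun W hW => ?_,
      Fin.addCases (fun j => by simpa [hγ''] using hc j) fun j => by
        simp [MonoidHom.mem_ker.1 (h1 (hu j))]⟩))⟩
  swap
  · obtain ⟨W', h3, h4⟩ := (ss_iff _).1 hss W fun g => by
      obtain ⟨g, rfl⟩ := hπ g
      exact hW g
    exact ⟨W', fun g => h3 (π g), h4⟩
  rintro y ⟨⟨σ, hy, hσ, hσ'⟩, z, hz⟩
  have hk : π.ker ≤ σ.ker := h2.trans (Subgroup.normalClosure_le_normal (hu' σ fun j => by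
    simpa using hσ' (Fin.natAdd s j)))
  let σ' := π.liftOfSurjective hπ ⟨σ, hk⟩
  have e : σ'.comp π = σ := π.liftOfRightInverse_comp _ _ _
  obtain ⟨y', hy'⟩ := exists_of_hom θ σ'
  have e2 : res ψ y' = y := ((represents θ').1 σ).unique (e ▸ hp σ' y' hy') hy
  refine ⟨y', ⟨mem_intPts fun p i j => ?_, σ', hy', (ss_iff _).2 fun W hW => ?_, fun j => ?_⟩, e2⟩
  · obtain ⟨b, hb⟩ := hsur (cls r R (MvPolynomial.X (p, i, j)))
    refine ⟨z b, ?_⟩
    rw [gens_apply, ← hb]
    exact RingHom.congr_fun (e2.trans hz.symm) b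
  · obtain ⟨W', h3, h4⟩ := (ss_iff _).1 hσ W fun g => e ▸ hW (π g)
    refine ⟨W', fun g => ?_, h4⟩
    obtain ⟨g, rfl⟩ := hπ g
    exact (e ▸ h3 : ∀ g, ∀ v ∈ W', ((σ'.comp π) g).1 *ᵥ v ∈ W') g
  · have := hσ' (Fin.castAdd n j)
    rw [← e] at this
    simpa [hγ''] using this

end Vale.Agent.P002B14
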