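import Vale.Agent.P002B14.Over
import Vale.Agent.P002Z.Main

/-!
# Loops in a small disc (helper14)
-/

set_option autoImplicit false
set_option linter.all false

namespace Vale.Agent.P002B14

open Set Filter Topology Metric Vale.Agent.P002Z

theorem shr {M : Type} [TopologicalSpace M] [ChartedSpace ℂ M] [T1Space M] {D : Set M}
    (hD : D.Finite) (x0 : ↥Dᶜ) [PathConnectedSpace ↥Dᶜ] (q : M) : ∃ O ∈ 𝓝 q,
      ∀ y (σ : Path x0 y) (c : Path y y), (∀ t, (c t : M) ∈ O) →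
        conjLoop σ c = 1 ∨ (q ∈ D ∧ LocalAt D x0 q (conjLoop σ c)) := by
  obtain ⟨κ, hκ, -⟩ := exists_univ x0
  have hop : IsOpen Dᶜ := hD.isClosed.isOpen_compl
  by_cases hq : q ∈ D
  swap
  · letI : ChartedSpace ℂ ↥Dᶜ :=
      TopologicalSpace.Opens.instChartedSpace (⟨Dᶜ, hop⟩ : TopologicalSpace.Opens M)
    obtain ⟨U, hU, hqU, -, hs⟩ := lsc_chart ℂ ↥Dᶜ ⟨q, hq⟩ univ univ_mem
    refine ⟨(↑) '' U, (hop.isOpenMap_subtype_val U hU).mem_nhds ⟨_, hqU, rfl⟩,
      fun y σ c hc => Or.inl ?_⟩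
    have h1 : κ.v c = 1 := (κ.hom (null_of_isSimplyConnected hs y c fun t => by
      obtain ⟨u, hu, e⟩ := hc t
      exact Subtype.ext e ▸ hu)).trans (κ.refl _)
    rw [← hκ (conjLoop σ c), κ.toHom_conjLoop, h1, mul_one, inv_mul_cancel]
  let e := chartAt ℂ q
  have hb : q ∈ e.source := mem_chart_source ℂ q
  have hcs : ContinuousAt e.symm (e q) := e.continuousAt_symm (e.map_source hb)
  have h1 : e.target ∩ e.symm ⁻¹' (D \ {q})ᶜ ∈ 𝓝 (e q) :=
    inter_mem (e.open_target.mem_nhds (e.map_source hb)) (hcs (by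
      rw [e.left_inv hb]
      exact (hD.subset sdiff_subset).isClosed.isOpen_compl.mem_nhds fun h => h.2 rfl))
  obtain ⟨r, hr, h2⟩ := Metric.mem_nhds_iff.1 h1
  refine ⟨e.source ∩ e ⁻¹' ball (e q) r, inter_mem (e.open_source.mem_nhds hb)
    (e.continuousAt hb (ball_mem_nhds _ hr)), fun y σ c hc => Or.inr ⟨hq, fun O hO => ?_⟩⟩
  have hce : ∀ t, (c.extend t : M) ∈ e.source ∩ e ⁻¹' ball (e q) r := fun t => by
    obtain ⟨u, hu⟩ : c.extend t ∈ range c := c.extend_range ▸ mem_range_self t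
    exact hu ▸ hc u
  let z : ℝ → ℂ := fun t => e (c.extend t) - e q
  have hz : Continuous z := (e.continuousOn.comp_continuous
    (continuous_subtype_val.comp c.continuous_extend) fun t => (hce t).1).sub continuous_const
  have hzr : ∀ t, ‖z t‖ < r := fun t => mem_ball_iff_norm.1 (hce t).2
  have hz0 : ∀ t, z t ≠ 0 := fun t h => (c.extend t).2
    ((e.injOn (hce t).1 hb (sub_eq_zero.1 h)).symm ▸ hq)
  let u : ℝ × ℝ → ℂ := fun w => e q + Real.exp (min w.1 0) • z w.2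
  have hu : Continuous u := by simp only [u]; fun_prop
  have hud : ∀ w, dist (u w) (e q) = Real.exp (min w.1 0) * ‖z w.2‖ := fun w => by
    simp only [u, dist_self_add_left, norm_smul, Real.norm_of_nonneg (Real.exp_pos _).le]
  have hub : ∀ w, u w ∈ ball (e q) r := fun w => by
    rw [mem_ball, hud]
    exact (mul_le_of_le_one_left (norm_nonneg _)
      (Real.exp_le_one_iff.2 (min_le_right _ _))).trans_lt (hzr _)
  let Ψ : C(ℝ × ℝ, ↥Dᶜ) := ⟨fun w => ⟨e.symm (u w), fun h => (h2 (hub w)).2 ⟨h, fun h' => by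
      have h3 : u w = e q := by rw [← e.right_inv (h2 (hub w)).1, h']
      have h4 := hud w
      rw [h3, dist_self] at h4
      exact (mul_pos (Real.exp_pos _) (norm_pos_iff.2 (hz0 _))).ne h4⟩⟩,
    (e.continuousOn_symm.comp_continuous hu fun w => (h2 (hub w)).1).subtype_mk _⟩
  have h0 : ∀ t, Ψ (0, t) = c.extend t := fun t => Subtype.ext (by
    change e.symm (u (0, t)) = _
    simp only [u, z, min_self, Real.exp_zero, one_smul, add_sub_cancel]
    exact e.left_inv (hce t).1)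
  have hper : ∀ s, Ψ (s, 1) = Ψ (s, 0) := fun s => Subtype.ext (by
    change e.symm (u (s, 1)) = e.symm (u (s, 0))
    simp only [u, z, Path.extend_zero, Path.extend_one])
  obtain ⟨ε, hε, hεO⟩ := Metric.mem_nhds_iff.1 (hcs (by rwa [e.left_inv hb]) : e.symm ⁻¹' O ∈ _)
  obtain ⟨s, hs0, hs⟩ : ∃ s : ℝ, s ≤ 0 ∧ Real.exp s < ε / r :=
    ((eventually_le_atBot 0).and (Real.tendsto_exp_atBot.eventually
      (gt_mem_nhds (div_pos hε hr)))).exists
  have hnull : Null (univ : Set (ℝ × ℝ)) := fun x q _ => SimplyConnectedSpace.paths_homotopic _ _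
  obtain ⟨τ, hτ⟩ := hnull.exists_pot (κ.comap Ψ)
  have hseg : ∀ a a' : ℝ × ℝ, (κ.comap Ψ).v (Path.segment a a') = (τ a')⁻¹ * τ a := fun a a' =>
    hτ _ _ _ fun _ => mem_univ _
  have hy : y = Ψ (0, 0) := by rw [h0, Path.extend_zero]
  let c' : Path (Ψ (s, 0)) (Ψ (s, 0)) :=
    ((Path.segment ((s, 0) : ℝ × ℝ) (s, 1)).map Ψ.continuous).cast rfl (hper s).symm
  let ρ : Path y (Ψ (s, 0)) :=
    ((Path.segment ((0, 0) : ℝ × ℝ) (s, 0)).map Ψ.continuous).cast hy rfl
  refine ⟨Ψ (s, 0), σ.trans ρ, c', fun t => hεO ?_, ?_⟩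
  · change u (Path.segment ((s, 0) : ℝ × ℝ) (s, 1) t) ∈ ball _ ε
    rw [mem_ball, hud]
    have : (Path.segment ((s, 0) : ℝ × ℝ) (s, 1) t).1 = s := by
      simp [Path.segment_apply, AffineMap.lineMap_apply]
    rw [this, min_eq_left hs0]
    exact (mul_le_mul_of_nonneg_left (hzr _).le (Real.exp_pos _).le).trans_lt
      ((lt_div_iff₀ hr).1 hs)
  · have e1 : κ.v c = (τ (0, 1))⁻¹ * τ (0, 0) := by
      rw [← hseg]
      refine κ.congr (q := (Path.segment ((0, 0) : ℝ × ℝ) (0, 1)).map Ψ.continuous) fun t => ?_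
      change _ = Ψ (Path.segment ((0, 0) : ℝ × ℝ) (0, 1) t)
      have : Path.segment ((0, 0) : ℝ × ℝ) (0, 1) t = (0, (t : ℝ)) := by
        simp [Path.segment_apply, AffineMap.lineMap_apply]
      rw [this, h0, Path.extend_extends']
    have e2 : κ.v c' = (τ (s, 1))⁻¹ * τ (s, 0) := by
      rw [← hseg]
      exact κ.congr fun _ => rfl
    have e3 : κ.v ρ = (τ (s, 0))⁻¹ * τ (0, 0) := by
      rw [← hseg]
      exact κ.congr fun _ => rfl
    have e4 : κ.v ρ = (τ (s, 1))⁻¹ * τ (0, 1) := by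
      rw [← hseg]
      refine κ.congr (q := (Path.segment ((0, 1) : ℝ × ℝ) (s, 1)).map Ψ.continuous) fun t => ?_
      change Ψ (Path.segment ((0, 0) : ℝ × ℝ) (s, 0) t) = Ψ (Path.segment ((0, 1) : ℝ × ℝ) (s, 1) t)
      have a1 : Path.segment ((0, 0) : ℝ × ℝ) (s, 0) t = ((t : ℝ) * s, 0) := by
        simp [Path.segment_apply, AffineMap.lineMap_apply]
      have a2 : Path.segment ((0, 1) : ℝ × ℝ) (s, 1) t = ((t : ℝ) * s, 1) := by
        simp [Path.segment_apply, AffineMap.lineMap_apply]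
      rw [a1, a2, hper]
    rw [← hκ (conjLoop σ c), ← hκ (conjLoop (σ.trans ρ) c'), κ.toHom_conjLoop, κ.toHom_conjLoop,
      κ.trans, e1, e2]
    have e5 : τ (0, 1) = τ (s, 1) * κ.v ρ := by rw [e4]; group
    have e6 : τ (0, 0) = τ (s, 0) * κ.v ρ := by rw [e3]; group
    rw [e5, e6]
    group

end Vale.Agent.P002B14
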