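import Vale.Agent.P002B14.Thin

/-!
# P002: fibrations over curves outside a thin subset (helper14)
-/

set_option autoImplicit false
set_option linter.all false

open Set Topology Filter
open Vale.Agent.P299G40 (PN IsSmoothVariety)

namespace Vale.Agent.P002B14.RS

open Vale.Agent.P002A Vale.Agent.P002D Vale.Agent.P002Z FundamentalGroup

variable {T : Type} [TopologicalSpace T] {E E' : Set T}

open scoped Manifold

variable {k : ℕ} {M : Fin k → Type} [∀ i, TopologicalSpace (M i)] [∀ i, T2Space (M i)]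
  [∀ i, CompactSpace (M i)] [∀ i, ConnectedSpace (M i)] [∀ i, ChartedSpace ℂ (M i)]
  [∀ i, IsManifold 𝓘(ℂ) 1 (M i)] (D : ∀ i, Set (M i)) (hD : ∀ i, (D i).Finite)

include hD

theorem cpc (i : Fin k) : PathConnectedSpace ↥(D i)ᶜ :=
  isPathConnected_iff_pathConnectedSpace.1 (isPathConnected_compl_finite (hD i))

theorem thin_q1 (h : E'ᶜ ⊆ Eᶜ) (hT : Thin E E') (f : ∀ i, C(↥E'ᶜ, ↥(D i)ᶜ))
    (hf : ∀ p ∉ E, ∀ i, ExtendsAt (f i) p) [PathConnectedSpace ↥E'ᶜ] (x₀ : ↥E'ᶜ)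
    [Group.FG (FundamentalGroup ↥E'ᶜ x₀)] (hr : ∀ i, (map (f i) x₀).range.FiniteIndex)
    (hK : VirtSolv ↥(⨅ i, (map (f i) x₀).ker)) :
    PathConnectedSpace ↥Eᶜ ∧ Group.FG (FundamentalGroup ↥Eᶜ (ContinuousMap.inclusion h x₀)) ∧
      P002F.Dens _ (map (ContinuousMap.inclusion h) x₀ ''
        {γ | ∃ p ∈ E, (∀ i, ExtendsAt (f i) p) ∧ IsDiscLoop E' x₀ p γ}) := by
  have hX := (hT.th h).pc
  have hp : ∀ i, PathConnectedSpace ↥(D i)ᶜ := cpc D hD
  choose g n m δ hδ hper using fun i => haveI := cpc D hD i; curve_isOrb (hD i) (f i x₀)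
  choose O hO hO' using fun i => shr (hD i) (f i x₀)
  have hV : ∀ x : ↥Eᶜ, ∃ V ∈ 𝓝 x, ∀ y : ↥E'ᶜ, ContinuousMap.inclusion h y ∈ V →
      ∀ i, (f i y : M i) ∈ O i (hf x x.2 i).choose := fun x => by
    have h1 : ∀ᶠ y : ↥E'ᶜ in comap Subtype.val (𝓝 (x : T)),
        ∀ i, (f i y : M i) ∈ O i (hf x x.2 i).choose :=
      eventually_all.2 fun i => (hf x x.2 i).choose_spec (hO i _)
    obtain ⟨V, hV, h2⟩ := mem_comap.1 h1
    exact ⟨Subtype.val ⁻¹' V, continuous_subtype_val.continuousAt hV, fun y hy => h2 hy⟩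
  choose V hV hV' using hV
  obtain ⟨hs, S, s1, s2, s3⟩ := fill (hT.th h) x₀ V hV
  refine ⟨hX, Group.fg_of_surjective hs, ?_⟩
  have hd : P002F.Dens _ ({γ | ∃ p ∈ E, (∀ i, ExtendsAt (f i) p) ∧ IsDiscLoop E' x₀ p γ} ∪ S) := by
    refine P002F.dens_of_key fun ι _ R θ r s w C hw hC =>
      P002F.dense_of_maps hδ (fun i => map (f i) x₀) hr hK R θ r s w C (fun j i => ?_) hC
    rcases hw j with ⟨p, -, h1, h2⟩ | h1
    · rcases image_loop (f i) (h1 i) h2 with h | ⟨q, hq, h⟩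
      · exact Or.inl h
      · exact Or.inr (hper i q hq _ h)
    · obtain ⟨x, y, σ, c, hc, e⟩ := s1 _ h1
      rw [e, map_conjLoop]
      exact (hO' i _ _ _ (c.map (f i).continuous) fun t => hV' x _ (hc t) i).imp id
        fun h => hper i _ h.1 _ h.2
  have h2 := quo _ hs subset_union_right s2 s3 hd
  intro ι _ R θ r
  exact ⟨(h2 ι R θ r).1, (h2 ι R θ r).2.1, fun s γ C hγ =>
    (h2 ι R θ r).2.2 s γ C fun j => image_mono subset_union_left (hγ j)⟩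

theorem pi_map {X : Type} [TopologicalSpace X] (f : ∀ i, C(X, ↥(D i)ᶜ)) (x₀ : X) :
    ∃ Φ : FundamentalGroup (∀ i, ↥(D i)ᶜ) (ContinuousMap.pi f x₀) ≃*
      ∀ i, FundamentalGroup ↥(D i)ᶜ (f i x₀),
      ∀ a i, Φ (map (ContinuousMap.pi f) x₀ a) i = map (f i) x₀ a := by
  refine ⟨MulEquiv.ofBijective (MonoidHom.pi fun i => map ⟨_, continuous_apply i⟩ _)
    ⟨fun a b e => ?_, fun a => ⟨Path.Homotopic.pi a,
      funext fun i => Path.Homotopic.proj_pi i a⟩⟩, fun a i => ?_⟩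
  · exact (Path.Homotopic.pi_proj a).symm.trans
      ((congrArg Path.Homotopic.pi e).trans (Path.Homotopic.pi_proj b))
  · obtain ⟨q, rfl⟩ := Path.Homotopic.Quotient.mk_surjective a
    rfl

theorem fg_curve (i : Fin k) (x : ↥(D i)ᶜ) : Group.FG (FundamentalGroup ↥(D i)ᶜ x) := by
  obtain ⟨g, n, m, δ, hδ, -⟩ := haveI := cpc D hD i; curve_isOrb (hD i) x
  exact Group.fg_iff.2 ⟨_, hδ.gen, finite_range _⟩

theorem thin_bundle (h : E'ᶜ ⊆ Eᶜ) (hT : Thin E E') (f : ∀ i, C(↥E'ᶜ, ↥(D i)ᶜ))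
    (hf : ∀ p ∉ E, ∀ i, ExtendsAt (f i) p) (F : Type) [TopologicalSpace F] [PathConnectedSpace F]
    (y : F) (hb : ∀ b, ∃ e : Bundle.Trivialization F (ContinuousMap.pi f), b ∈ e.baseSet)
    (h1 : Group.FG (FundamentalGroup F y)) (h2 : VirtSolv (FundamentalGroup F y)) :
    PathConnectedSpace ↥Eᶜ ∧ ∀ x₀ : ↥E'ᶜ,
      Group.FG (FundamentalGroup ↥Eᶜ (ContinuousMap.inclusion h x₀)) ∧
      P002F.Dens _ (map (ContinuousMap.inclusion h) x₀ ''
        {γ | ∃ p ∈ E, (∀ i, ExtendsAt (f i) p) ∧ IsDiscLoop E' x₀ p γ}) := by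
  have : ∀ i, PathConnectedSpace ↥(D i)ᶜ := cpc D hD
  have hX : PathConnectedSpace ↥E'ᶜ := P002B14.pc (ContinuousMap.pi f) hb
  refine ⟨(hT.th h).pc, fun x₀ => ?_⟩
  obtain ⟨h3, j, h4⟩ := P002B14.over f (lsc_pi ℂ D fun i => (hD i).isClosed) hb x₀ y
  have := fun i => fg_curve D hD i (f i x₀)
  have := fg_ext _ h3 j fun a ha => h4 (Subgroup.mem_iInf.2 fun i => congrFun ha i)
  refine (thin_q1 D hD h hT f hf x₀ (fun i => ?_) (vs_of_le j h4 h2)).2
  have : (map (f i) x₀).range = ⊤ := MonoidHom.range_eq_top.2 fun a => by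
    obtain ⟨b, hb⟩ := h3 (Pi.mulSingle i a)
    exact ⟨b, (congrFun hb i).trans (Pi.mulSingle_eq_same
      (M := fun i => FundamentalGroup ↥(D i)ᶜ (f i x₀)) i a)⟩
  rw [this]
  infer_instance

theorem thin_cover (h : E'ᶜ ⊆ Eᶜ) (hT : Thin E E') (f : ∀ i, C(↥E'ᶜ, ↥(D i)ᶜ))
    (hf : ∀ p ∉ E, ∀ i, ExtendsAt (f i) p) [PathConnectedSpace ↥E'ᶜ]
    (hc : IsCoveringMap (ContinuousMap.pi f)) (x₀ : ↥E'ᶜ)
    (hx : {x | ∀ i, f i x = f i x₀}.Finite) :
    PathConnectedSpace ↥Eᶜ ∧ Group.FG (FundamentalGroup ↥Eᶜ (ContinuousMap.inclusion h x₀)) ∧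
      P002F.Dens _ (map (ContinuousMap.inclusion h) x₀ ''
        {γ | ∃ p ∈ E, (∀ i, ExtendsAt (f i) p) ∧ IsDiscLoop E' x₀ p γ}) := by
  obtain ⟨Φ, hΦ⟩ := pi_map D hD f x₀
  have hinj : Function.Injective (map (ContinuousMap.pi f) x₀) :=
    hc.injective_path_homotopic_map x₀ x₀
  have hidx : (map (ContinuousMap.pi f) x₀).range.FiniteIndex :=
    ⟨index_range_ne_zero hc x₀ (hx.subset fun x hx i => congrFun hx i)⟩
  have := fun i => fg_curve D hD i (f i x₀)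
  have : Group.FG (FundamentalGroup (∀ i, ↥(D i)ᶜ) (ContinuousMap.pi f x₀)) :=
    Group.fg_of_surjective (f := Φ.symm.toMonoidHom) Φ.symm.surjective
  have : Group.FG (FundamentalGroup ↥E'ᶜ x₀) := Group.fg_of_surjective
    (f := (MonoidHom.ofInjective hinj).symm.toMonoidHom) (MulEquiv.surjective _)
  refine thin_q1 D hD h hT f hf x₀ (fun i => ?_) ?_
  · let ψ := (Pi.evalMonoidHom _ i).comp Φ.toMonoidHom
    have hψ : Function.Surjective ψ := (Function.surjective_eval i).comp Φ.surjective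
    refine ⟨fun h0 => hidx.index_ne_zero (Nat.eq_zero_of_zero_dvd ?_)⟩
    have e : (map (f i) x₀).range = (map (ContinuousMap.pi f) x₀).range.map ψ := by
      rw [← MonoidHom.range_comp]
      exact congrArg _ (MonoidHom.ext fun a => (hΦ a i).symm)
    rw [← h0, e]
    exact Subgroup.index_map_dvd _ hψ
  · have : Subsingleton ↥(⨅ i, (map (f i) x₀).ker) := ⟨fun a b => Subtype.ext (hinj
      (Φ.injective (funext fun i => by
        rw [hΦ, hΦ, MonoidHom.mem_ker.1 (Subgroup.mem_iInf.1 a.2 i),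
          MonoidHom.mem_ker.1 (Subgroup.mem_iInf.1 b.2 i)])))⟩
    exact ⟨⊤, inferInstance, inferInstance⟩

end Vale.Agent.P002B14.RS
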